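import Vale.Agent.P141.H447.NumI
import Vale.Agent.P141.H224.SupQ

/-!
# P141, line (A), TI: the energies of the moving slot at every scale at once

* `supW` : weights `W k x₀` which fall with the scale, cell sums `≤ e 2 ^ k`, a family `X k x₀`
  with `Φ x₀` above `X` on the cells of every scale: there is `E x₀` above `W k x₀ * X k x₀` for
  every `k`, with `∑ E ≤ e ∑ Φ`.
-/

namespace Vale.Agent.P141.H447

open Finset Matrix
open Vale.Agent.P141.PL (Pt iv ix mem_iv)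

noncomputable section

/-! ### The supremum over the scales -/

section supW

theorem iv_ne (k : ℕ) (j : ℤ) : (iv k j).Nonempty := by
  refine ⟨2 ^ k * j, ?_⟩
  rw [mem_iv]
  unfold PL.ix
  exact Int.mul_ediv_cancel_left _ (by positivity)

/-- supremum over the cell -/
def Yc (X : ℕ → ℤ → ℝ) (k : ℕ) (j : ℤ) : ℝ := (iv k j).sup' (iv_ne k j) (X k)

/-- supremum over the scales `≥ k` of the suprema over the cells; `i` scales below `K` -/
def Mc (X : ℕ → ℤ → ℝ) (K : ℕ) : ℕ → ℤ → ℝ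
  | 0, x => Yc X K (ix K x)
  | i + 1, x => max (Yc X (K - (i + 1)) (ix (K - (i + 1)) x)) (Mc X K i x)

theorem le_Yc (X : ℕ → ℤ → ℝ) (k : ℕ) (x : ℤ) : X k x ≤ Yc X k (ix k x) :=
  le_sup' (X k) (mem_iv.2 rfl)

theorem Mc_mono (X : ℕ → ℤ → ℝ) (K i : ℕ) (x : ℤ) : Mc X K i x ≤ Mc X K (i + 1) x :=
  le_max_right _ _

theorem Yc_le_Mc (X : ℕ → ℤ → ℝ) (K i : ℕ) (x : ℤ) :
    Yc X (K - i) (ix (K - i) x) ≤ Mc X K i x := by
  cases i with
  | zero => exact le_rfl
  | succ i => exact le_max_left _ _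

theorem Mc_le {X : ℕ → ℤ → ℝ} {Φ : ℤ → ℝ} {K : ℕ}
    (hΦ : ∀ k ≤ K, ∀ x, ∀ x' ∈ iv k (ix k x), X k x' ≤ Φ x) (i : ℕ) (x : ℤ) :
    Mc X K i x ≤ Φ x := by
  induction i with
  | zero => exact sup'_le (iv_ne _ _) _ fun x' hx' => hΦ K le_rfl x x' hx'
  | succ i ih =>
    exact max_le (sup'_le (iv_ne _ _) _ fun x' hx' => hΦ _ (Nat.sub_le _ _) x x' hx') ih

theorem Mc_cell (X : ℕ → ℤ → ℝ) (K i : ℕ) {x y : ℤ} (h : ix (K - i) x = ix (K - i) y) :
    Mc X K i x = Mc X K i y := by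
  have up : ∀ {j k : ℕ}, j ≤ k → ix j x = ix j y → ix k x = ix k y := by
    intro j k hjk e
    have h1 : ∀ z : ℤ, ix k z = ix (k - j) (ix j z) := fun z => by
      rw [PL.ix_ix, Nat.add_sub_cancel' hjk]
    rw [h1, h1, e]
  induction i with
  | zero =>
    unfold Mc
    rw [Nat.sub_zero] at h
    rw [h]
  | succ i ih =>
    unfold Mc
    rw [h, ih (up (by omega) h)]

/-- a weight with cell sums `≤ e 2 ^ k` against a function of the cells of scale `k` -/
theorem cell_const {W c : ℤ → ℝ} {e : ℝ} {k K : ℕ} (hk : k ≤ K)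
    (hW : ∀ j, ∑ x ∈ iv k j, W x ≤ e * 2 ^ k) (hc0 : ∀ x, 0 ≤ c x)
    (hc : ∀ x y, ix k x = ix k y → c x = c y) (T : ℤ) :
    ∑ x ∈ iv K T, W x * c x ≤ e * ∑ x ∈ iv K T, c x := by
  have key : ∀ r : ℕ, ∀ j, ∑ x ∈ iv (k + r) j, W x * c x ≤ e * ∑ x ∈ iv (k + r) j, c x := by
    intro r
    induction r with
    | zero =>
      intro j
      have e0 : ∀ x ∈ iv k j, c x = c (2 ^ k * j) := by
        intro x hx
        refine hc _ _ ?_
        rw [mem_iv.1 hx]
        unfold PL.ix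
        rw [Int.mul_ediv_cancel_left _ (by positivity)]
      rw [add_zero, sum_congr rfl fun x hx => by rw [e0 x hx], ← sum_mul,
        sum_congr (g := fun _ => c (2 ^ k * j)) rfl fun x hx => e0 x hx, sum_const, nsmul_eq_mul]
      have hcard : ((iv k j).card : ℝ) = 2 ^ k := by
        unfold PL.iv
        rw [Int.card_Ico]
        have h1 : (2 : ℤ) ^ k * j + 2 ^ k - 2 ^ k * j = ((2 ^ k : ℕ) : ℤ) := by
          push_cast
          ring
        rw [h1, Int.toNat_natCast]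
        push_cast
        rfl
      rw [hcard, ← mul_assoc]
      exact mul_le_mul_of_nonneg_right (hW j) (hc0 _)
    | succ r ih =>
      intro j
      rw [← add_assoc, iv_succ_sum, iv_succ_sum, mul_add]
      exact add_le_add (ih _) (ih _)
  have h := key (K - k) T
  rwa [Nat.add_sub_cancel' hk] at h

/-- **The supremum over all scales of weighted energies.** -/
theorem supW {X W : ℕ → ℤ → ℝ} {Φ : ℤ → ℝ} {K : ℕ} {e : ℝ} (hX : ∀ k x, 0 ≤ X k x)
    (he : 0 ≤ e) (hΦ : ∀ k ≤ K, ∀ x, ∀ x' ∈ iv k (ix k x), X k x' ≤ Φ x)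
    (hW0 : ∀ k x, 0 ≤ W k x) (hWm : ∀ k < K, ∀ x, W k x ≤ W (k + 1) x)
    (hW : ∀ k ≤ K, ∀ j, ∑ x ∈ iv k j, W k x ≤ e * 2 ^ k) (T : ℤ) :
    ∃ E : ℤ → ℝ, (∀ x, 0 ≤ E x) ∧ (∀ k ≤ K, ∀ x, W k x * X k x ≤ E x) ∧
      ∑ x ∈ iv K T, E x ≤ e * ∑ x ∈ iv K T, Φ x := by
  set M := Mc X K with hM
  have hM0 : ∀ i x, 0 ≤ M i x := by
    intro i x
    refine le_trans ?_ (Yc_le_Mc X K i x)
    exact (hX _ _).trans (le_Yc X _ x)
  let S : ℕ → ℤ → ℝ := fun n x => W K x * M 0 x +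
    ∑ i ∈ range n, W (K - (i + 1)) x * (M (i + 1) x - M i x)
  have hS : ∀ n x, S (n + 1) x = S n x + W (K - (n + 1)) x * (M (n + 1) x - M n x) := by
    intro n x
    simp only [S]
    rw [sum_range_succ]
    ring
  have hterm : ∀ n x, 0 ≤ W (K - (n + 1)) x * (M (n + 1) x - M n x) := fun n x =>
    mul_nonneg (hW0 _ _) (sub_nonneg.2 (Mc_mono X K n x))
  have h1 : ∀ n ≤ K, ∀ x, W (K - n) x * M n x ≤ S n x := by
    intro n
    induction n with
    | zero =>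
      intro _ x
      simp only [S, range_zero, sum_empty, add_zero, Nat.sub_zero]
      exact le_rfl
    | succ n ih =>
      intro hn x
      rw [hS]
      have h2 := ih (by omega) x
      have h3 := hWm (K - (n + 1)) (by omega) x
      rw [show K - (n + 1) + 1 = K - n by omega] at h3
      have h4 := mul_le_mul_of_nonneg_right h3 (hM0 n x)
      calc W (K - (n + 1)) x * M (n + 1) x
          = W (K - (n + 1)) x * M n x + W (K - (n + 1)) x * (M (n + 1) x - M n x) := by ring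
        _ ≤ S n x + W (K - (n + 1)) x * (M (n + 1) x - M n x) := by linarith
  have h5 : ∀ x, Monotone fun n => S n x := fun x => monotone_nat_of_le_succ fun n => by
    rw [hS]
    linarith [hterm n x]
  have h6 : ∀ n ≤ K, ∑ x ∈ iv K T, S n x ≤ e * ∑ x ∈ iv K T, M n x := by
    intro n
    induction n with
    | zero =>
      intro _
      simp only [S, range_zero, sum_empty, add_zero]
      exact cell_const le_rfl (hW K le_rfl) (hM0 0) (fun x y h => Mc_cell X K 0 (by simpa using h)) T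
    | succ n ih =>
      intro hn
      have h7 := ih (by omega)
      have h8 := cell_const (c := fun x => M (n + 1) x - M n x) (Nat.sub_le K (n + 1))
        (hW (K - (n + 1)) (Nat.sub_le _ _)) (fun x => sub_nonneg.2 (Mc_mono X K n x))
        (fun x y h => by
          have h9 : ix (K - n) x = ix (K - n) y := by
            have e1 : ∀ z : ℤ, ix (K - n) z = ix 1 (ix (K - (n + 1)) z) := fun z => by
              rw [PL.ix_ix, show K - (n + 1) + 1 = K - n by omega]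
            rw [e1, e1, h]
          rw [hM, Mc_cell X K (n + 1) h, Mc_cell X K n h9]) T
      have h10 : ∑ x ∈ iv K T, S (n + 1) x = ∑ x ∈ iv K T, S n x +
          ∑ x ∈ iv K T, W (K - (n + 1)) x * (M (n + 1) x - M n x) := by
        rw [← sum_add_distrib]
        exact sum_congr rfl fun x _ => hS n x
      have h11 : ∑ x ∈ iv K T, M (n + 1) x = ∑ x ∈ iv K T, M n x +
          ∑ x ∈ iv K T, (M (n + 1) x - M n x) := by
        rw [← sum_add_distrib]
        exact sum_congr rfl fun x _ => by ring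
      rw [h10, h11, mul_add]
      exact add_le_add h7 h8
  refine ⟨S K, fun x => ?_, fun k hk x => ?_, ?_⟩
  · refine le_trans ?_ (h5 x (Nat.zero_le K))
    simp only [S, range_zero, sum_empty, add_zero]
    exact mul_nonneg (hW0 _ _) (hM0 _ _)
  · have h7 := h1 (K - k) (Nat.sub_le _ _) x
    have h8 := Yc_le_Mc X K (K - k) x
    rw [Nat.sub_sub_self hk] at h7 h8
    have h9 := (le_Yc X k x).trans h8
    exact (mul_le_mul_of_nonneg_left h9 (hW0 k x)).trans (h7.trans (h5 x (Nat.sub_le K k)))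
  · refine (h6 K le_rfl).trans (mul_le_mul_of_nonneg_left (sum_le_sum fun x _ => ?_) he)
    exact Mc_le hΦ K x

open Vale.Agent.P141.H224 (cq up tl up_nonneg le_up up_mono sum_up tl_nonneg le_tl sum_tl)

/-- **The same with weights which may jump on affected cells.** -/
theorem supQ {X W : ℕ → ℤ → ℝ} {Φ : ℤ → ℝ} {K : ℕ} {e cp : ℝ} {a : ℕ → ℤ → Prop}
    (hX : ∀ k x, 0 ≤ X k x) (he : 0 ≤ e) (hcp : 0 ≤ cp) (hXc : ∀ k ≤ K, ∀ x, X k x ≤ cp)
    (hΦ : ∀ k ≤ K, ∀ x, ∀ x' ∈ iv k (ix k x), X k x' ≤ Φ x)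
    (hW0 : ∀ k x, 0 ≤ W k x) (hWm : ∀ k < K, ∀ x, ¬ a k (ix k x) → W k x ≤ W (k + 1) x)
    (hW : ∀ k ≤ K, ∀ j, ∑ x ∈ iv k j, W k x ≤ e * 2 ^ k) (lam : ℕ) (T : ℤ) :
    ∃ E : ℤ → ℝ, (∀ x, 0 ≤ E x) ∧ (∀ k ≤ K, ∀ x, W k x * X k x ≤ E x) ∧
      ∑ x ∈ iv K T, E x ≤ ((lam : ℝ) + 1) * e * ∑ x ∈ iv K T, Φ x +
        e * (cp * ∑ x ∈ iv K T, ((cq a K 0 x - lam : ℕ) : ℝ)) := by
  obtain ⟨E, hE0, hE, hs⟩ := supW (W := up a K lam W) hX
    (mul_nonneg (by positivity : (0 : ℝ) ≤ (lam : ℝ) + 1) he) hΦ (up_nonneg hW0)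
    (fun k hk x => up_mono hW0 hWm hk x) (fun k hk j => sum_up hW0 he hW hk j) T
  refine ⟨fun x => E x + cp * tl a K lam W x, fun x => add_nonneg (hE0 x)
    (mul_nonneg hcp (tl_nonneg hW0 x)), fun k hk x => ?_, ?_⟩
  · by_cases h : cq a K k x ≤ lam
    · have h1 := mul_le_mul_of_nonneg_right (le_up (n := K) hW0 h) (hX k x)
      have h2 := mul_nonneg hcp (tl_nonneg (a := a) (n := K) (lam := lam) hW0 x)
      linarith [hE k hk x]
    · have h1 := mul_le_mul (le_tl hW0 hWm hk (not_le.1 h)) (hXc k hk x) (hX k x)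
        (tl_nonneg hW0 x)
      have h2 := hE0 x
      linarith
  · rw [sum_add_distrib, ← mul_sum]
    have h1 := mul_le_mul_of_nonneg_left (sum_tl (a := a) (lam := lam) hW T) hcp
    calc _ ≤ ((lam : ℝ) + 1) * e * ∑ x ∈ iv K T, Φ x + cp * (e * ∑ x ∈ iv K T,
          ((cq a K 0 x - lam : ℕ) : ℝ)) := add_le_add hs h1
      _ = _ := by ring

/-- **The times `k` and `k + 1` at the scale `k`.** -/
theorem supQ2 {X W : ℕ → ℤ → ℝ} {Φ : ℤ → ℝ} {K : ℕ} {e cp : ℝ} {a : ℕ → ℤ → Prop}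
    (hX : ∀ k x, 0 ≤ X k x) (he : 0 ≤ e) (hcp : 0 ≤ cp) (hXc : ∀ k ≤ K, ∀ x, X k x ≤ cp)
    (hΦ : ∀ k ≤ K, ∀ x, ∀ x' ∈ iv k (ix k x), X k x' ≤ Φ x)
    (hW0 : ∀ k x, 0 ≤ W k x) (hWm : ∀ k < K, ∀ x, ¬ a k (ix k x) → W k x ≤ W (k + 1) x)
    (hW : ∀ k ≤ K, ∀ j, ∑ x ∈ iv k j, W k x ≤ e * 2 ^ k)
    (hW1 : ∀ k < K, ∀ j, ∑ x ∈ iv k j, W (k + 1) x ≤ e * 2 ^ k) (lam : ℕ) (T : ℤ) :
    ∃ E : ℤ → ℝ, (∀ x, 0 ≤ E x) ∧ (∀ k ≤ K, ∀ x, W k x * X k x ≤ E x) ∧
      (∀ k < K, ∀ x, W (k + 1) x * X k x ≤ E x) ∧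
      ∑ x ∈ iv K T, E x ≤ ((lam : ℝ) + 1) * (2 * e) * ∑ x ∈ iv K T, Φ x +
        2 * e * (cp * ∑ x ∈ iv K T, ((cq a K 0 x - lam : ℕ) : ℝ)) := by
  let V : ℕ → ℤ → ℝ := fun k x => if k < K then max (W k x) (W (k + 1) x) else W k x
  have hV0 : ∀ k x, 0 ≤ V k x := by
    intro k x
    simp only [V]
    split_ifs
    · exact le_max_of_le_left (hW0 k x)
    · exact hW0 k x
  have hVm : ∀ k < K, ∀ x, ¬ a k (ix k x) → V k x ≤ V (k + 1) x := by
    intro k hk x h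
    simp only [V]
    rw [if_pos hk, max_eq_right (hWm k hk x h)]
    split_ifs
    · exact le_max_left _ _
    · exact le_rfl
  have hV : ∀ k ≤ K, ∀ j, ∑ x ∈ iv k j, V k x ≤ 2 * e * 2 ^ k := by
    intro k hk j
    simp only [V]
    split_ifs with h
    · calc ∑ x ∈ iv k j, max (W k x) (W (k + 1) x) ≤ ∑ x ∈ iv k j, (W k x + W (k + 1) x) :=
            sum_le_sum fun x _ => max_le (by linarith [hW0 (k + 1) x]) (by linarith [hW0 k x])
        _ ≤ e * 2 ^ k + e * 2 ^ k := by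
            rw [sum_add_distrib]
            exact add_le_add (hW k hk j) (hW1 k h j)
        _ = _ := by ring
    · have h1 := hW k hk j
      have h2 : 0 ≤ e * 2 ^ k := by positivity
      linarith
  obtain ⟨E, hE0, hE, hs⟩ := supQ (W := V) (e := 2 * e) hX (by linarith) hcp hXc hΦ hV0 hVm hV
    lam T
  refine ⟨E, hE0, fun k hk x => ?_, fun k hk x => ?_, hs⟩
  · refine le_trans (mul_le_mul_of_nonneg_right ?_ (hX k x)) (hE k hk x)
    simp only [V]
    split_ifs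
    · exact le_max_left _ _
    · exact le_rfl
  · refine le_trans (mul_le_mul_of_nonneg_right ?_ (hX k x)) (hE k hk.le x)
    simp only [V]
    rw [if_pos hk]
    exact le_max_right _ _

end supW

end

end Vale.Agent.P141.H447
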