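import Vale.Agent.P141.H652.ThetaW

/-!
# P141, line (A), TI: the numbers of the moving slot of the increasing part

Weight `WI = β + Th`, `Th` the window average of `1 - S` (`H652.Th`), moves `MI = ah` and
`-EI = -eb` at the halving of the `x₃`-cell.

* `WI_left`, `WI_right`, `WI_ge` : the weight letters;
* `mv_pt` : the charges of the move at parent and child, pointwise;
* `en_I`, `mv_I`, `dr_I` : the sums over `x₀` at fixed `(x₁, x₃)`, slot `φ k x₀ • w` with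
  `∑ φ ^ 2 ≤ e 2 ^ k` over the cells of `x₀`.
-/

namespace Vale.Agent.P141.H447

open Finset Matrix
open Vale.Agent.P141.PL (Pt iv ix mem_iv)
open Vale.Agent.P141.H420 (Tr)
open Vale.Agent.P141.H652 (Th eb ah WT ET)

noncomputable section

variable {ι : Type*} [Fintype ι] [DecidableEq ι]

/-! ### The weight -/

/-- the weight `β + Th` -/
def WI (β l : ℝ) (N : ℕ) (S : ℤ) (Kq : ℤ → ℕ → ℤ → Matrix ι ι ℝ) (c x0 : ℤ) (x : ℤ) (k : ℕ)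
    (m : ℤ) : Matrix ι ι ℝ := β • (1 : Matrix ι ι ℝ) + Th l N S (Kq x) c x0 x k m

/-- the half difference of the children, index of the parent -/
def MI (l : ℝ) (N : ℕ) (S : ℤ) (Kq : ℤ → ℕ → ℤ → Matrix ι ι ℝ) (c x0 : ℤ) (x : ℤ) (k : ℕ)
    (m : ℤ) : Matrix ι ι ℝ := ah l N S (Kq x) c x0 x (k - 1) m

/-- the loss -/
def EI (l : ℝ) (N : ℕ) (S : ℤ) (Kq : ℤ → ℕ → ℤ → Matrix ι ι ℝ) (c x0 : ℤ) (x : ℤ) (k : ℕ)
    (m : ℤ) : Matrix ι ι ℝ := eb l N S (Kq x) c x0 x k m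

variable {β l : ℝ} {N : ℕ} {S : ℤ} {G Kq : ℤ → ℕ → ℤ → Matrix ι ι ℝ} {c x0 : ℤ}

theorem WI_left (x : ℤ) (k : ℕ) (m : ℤ) :
    WI β l N S Kq c x0 x k (2 * m) = WI β l N S Kq c x0 x (k + 1) m +
      -EI l N S Kq c x0 x (k + 1) m + MI l N S Kq c x0 x (k + 1) m := by
  have h := H652.Th_mean l N S (Kq x) c x0 x k m
  unfold WI EI MI H652.ah
  rw [Nat.add_sub_cancel]
  have e : Th l N S (Kq x) c x0 x (k + 1) m + -eb l N S (Kq x) c x0 x (k + 1) m =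
      (1 / 2 : ℝ) • (Th l N S (Kq x) c x0 x k (2 * m) + Th l N S (Kq x) c x0 x k (2 * m + 1)) := by
    rw [h, sub_eq_add_neg]
  rw [add_assoc (β • (1 : Matrix ι ι ℝ)) (Th l N S (Kq x) c x0 x (k + 1) m), e]
  module

theorem WI_right (x : ℤ) (k : ℕ) (m : ℤ) :
    WI β l N S Kq c x0 x k (2 * m + 1) = WI β l N S Kq c x0 x (k + 1) m +
      -EI l N S Kq c x0 x (k + 1) m - MI l N S Kq c x0 x (k + 1) m := by
  have h := H652.Th_mean l N S (Kq x) c x0 x k m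
  unfold WI EI MI H652.ah
  rw [Nat.add_sub_cancel]
  have e : Th l N S (Kq x) c x0 x (k + 1) m + -eb l N S (Kq x) c x0 x (k + 1) m =
      (1 / 2 : ℝ) • (Th l N S (Kq x) c x0 x k (2 * m) + Th l N S (Kq x) c x0 x k (2 * m + 1)) := by
    rw [h, sub_eq_add_neg]
  rw [add_assoc (β • (1 : Matrix ι ι ℝ)) (Th l N S (Kq x) c x0 x (k + 1) m), e]
  module

theorem WI_ge (hT : ∀ x, Tr l N (G x) (Kq x)) (x : ℤ) (k : ℕ) (m : ℤ) :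
    (WI β l N S Kq c x0 x k m - β • (1 : Matrix ι ι ℝ)).PosSemidef := by
  unfold WI
  rw [add_sub_cancel_left]
  exact H652.Th_psd (hT x) c x0 x k m

theorem WI_symm (hT : ∀ x, Tr l N (G x) (Kq x)) (x : ℤ) (k : ℕ) (m : ℤ) :
    (Th l N S (Kq x) c x0 x k m)ᵀ = Th l N S (Kq x) c x0 x k m := by
  have h := (H652.Th_psd (M := S) (hT x) c x0 x k m).isHermitian
  rw [IsHermitian, conjTranspose_eq_transpose_of_trivial] at h
  exact h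

theorem EI_psd (hT : ∀ x, Tr l N (G x) (Kq x)) (x : ℤ) (k : ℕ) (m : ℤ) :
    (EI l N S Kq c x0 x k m).PosSemidef := H652.eb_psd (hT x) c x0 x k m

theorem EI_symm (hT : ∀ x, Tr l N (G x) (Kq x)) (x : ℤ) (k : ℕ) (m : ℤ) :
    (EI l N S Kq c x0 x k m)ᵀ = EI l N S Kq c x0 x k m := by
  have h := (EI_psd (S := S) (c := c) (x0 := x0) hT x k m).isHermitian
  rw [IsHermitian, conjTranspose_eq_transpose_of_trivial] at h
  exact h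

theorem MI_symm (hT : ∀ x, Tr l N (G x) (Kq x)) (x : ℤ) (k : ℕ) (m : ℤ) :
    (MI l N S Kq c x0 x k m)ᵀ = MI l N S Kq c x0 x k m := by
  unfold MI H652.ah
  rw [transpose_smul, transpose_sub, WI_symm hT, WI_symm hT]

/-! ### The charges, pointwise -/

omit [DecidableEq ι] in
theorem dot_sq_le (a b : ι → ℝ) : (a ⬝ᵥ b) ^ 2 ≤ (a ⬝ᵥ a) * (b ⬝ᵥ b) := by
  have h := sum_mul_sq_le_sq_mul_sq univ a b
  unfold dotProduct
  calc (∑ i, a i * b i) ^ 2 ≤ (∑ i, a i ^ 2) * ∑ i, b i ^ 2 := h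
    _ = (∑ i, a i * a i) * ∑ i, b i * b i := by simp only [sq]

omit [DecidableEq ι] in
theorem dot_self_nonneg (a : ι → ℝ) : 0 ≤ a ⬝ᵥ a :=
  sum_nonneg fun i _ => mul_self_nonneg (a i)

/-- the form of the inverse of a weight `≥ β` -/
theorem inv_form_le {A : Matrix ι ι ℝ} (hβ : 0 < β)
    (h : (A - β • (1 : Matrix ι ι ℝ)).PosSemidef) (a : ι → ℝ) :
    a ⬝ᵥ A⁻¹ *ᵥ a ≤ β⁻¹ * (a ⬝ᵥ a) := by
  have hA : A.PosDef := by
    have h1 := (PosDef.one (n := ι) (R := ℝ)).smul hβ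
    have h2 := h1.add_posSemidef h
    rwa [add_sub_cancel] at h2
  have hu : IsUnit A.det := (Matrix.isUnit_iff_isUnit_det A).1 hA.isUnit
  set y := A⁻¹ *ᵥ a with hy
  have e : A *ᵥ y = a := by
    rw [hy, mulVec_mulVec, mul_nonsing_inv _ hu, one_mulVec]
  have h3 := h.dotProduct_mulVec_nonneg y
  simp only [star_trivial] at h3
  rw [sub_mulVec, dotProduct_sub, smul_mulVec, one_mulVec, dotProduct_smul, smul_eq_mul, e] at h3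
  have h4 := dot_sq_le a y
  have h5 : y ⬝ᵥ a = a ⬝ᵥ y := dotProduct_comm _ _
  have h6 := dot_self_nonneg a
  have h7 := dot_self_nonneg y
  rw [h5] at h3
  set p := a ⬝ᵥ y with hp
  have hp0 : 0 ≤ p := by nlinarith
  rw [inv_mul_eq_div, le_div_iff₀ hβ]
  by_cases hp1 : p = 0
  · rw [hp1, zero_mul]; exact h6
  · have hp2 : 0 < p := lt_of_le_of_ne hp0 (Ne.symm hp1)
    have h8 : p * (p * β) ≤ p * (a ⬝ᵥ a) := by
      calc p * (p * β) = β * p ^ 2 := by ring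
        _ ≤ β * ((a ⬝ᵥ a) * (y ⬝ᵥ y)) := mul_le_mul_of_nonneg_left h4 hβ.le
        _ = (a ⬝ᵥ a) * (β * (y ⬝ᵥ y)) := by ring
        _ ≤ (a ⬝ᵥ a) * p := mul_le_mul_of_nonneg_left (by linarith) h6
        _ = p * (a ⬝ᵥ a) := by ring
    exact le_of_mul_le_mul_left h8 hp2

/-- `|eb w|² ≤ 2 ⟪w, eb w⟫` -/
theorem eb_sq (hT : ∀ x, Tr l N (G x) (Kq x)) (x : ℤ) (k : ℕ) (m : ℤ) (w : ι → ℝ) :
    (EI l N S Kq c x0 x (k + 1) m *ᵥ w) ⬝ᵥ (EI l N S Kq c x0 x (k + 1) m *ᵥ w) ≤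
      2 * (w ⬝ᵥ EI l N S Kq c x0 x (k + 1) m *ᵥ w) := by
  have hp := EI_psd (S := S) (c := c) (x0 := x0) hT x (k + 1) m
  have h1 := H652.eb_le_Th (M := S) (hT x) c x0 x k m
  have h2 := H652.Th_le_two (M := S) (hT x) c x0 x (k + 1) m
  have h3 : ((2 : ℝ) • (1 : Matrix ι ι ℝ) - EI l N S Kq c x0 x (k + 1) m).PosSemidef := by
    have h4 := h1.add h2
    have e : Th l N S (Kq x) c x0 x (k + 1) m - eb l N S (Kq x) c x0 x (k + 1) m +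
        ((2 : ℝ) • (1 : Matrix ι ι ℝ) - Th l N S (Kq x) c x0 x (k + 1) m) =
        (2 : ℝ) • (1 : Matrix ι ι ℝ) - EI l N S Kq c x0 x (k + 1) m := by
      unfold EI
      abel
    rwa [e] at h4
  set E := EI l N S Kq c x0 x (k + 1) m with hE
  have hs : Eᵀ = E := H420.tr_symm hp.isHermitian
  set y := E *ᵥ w with hy
  have h4 := H420.quad_nonneg hp (w - (1 / 2 : ℝ) • y)
  have h5 := H420.quad_nonneg h3 y
  rw [sub_mulVec, dotProduct_sub, smul_mulVec, one_mulVec, dotProduct_smul, smul_eq_mul] at h5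
  have e1 : w ⬝ᵥ E *ᵥ y = y ⬝ᵥ y := by
    rw [dotProduct_mulVec, ← mulVec_transpose, hs]
  rw [mulVec_sub, mulVec_smul, ← hy] at h4
  simp only [dotProduct_sub, sub_dotProduct, dotProduct_smul, smul_dotProduct, smul_eq_mul, e1] at h4
  linarith

/-- charge of a move `d = -eb ± ah` against a weight `≥ β` -/
theorem child_pt (hβ : 0 < β) (hT : ∀ x, Tr l N (G x) (Kq x)) {A : Matrix ι ι ℝ}
    (h : (A - β • (1 : Matrix ι ι ℝ)).PosSemidef) (x : ℤ) (k : ℕ) (m : ℤ) {d : Matrix ι ι ℝ}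
    (hd : d = -EI l N S Kq c x0 x (k + 1) m + MI l N S Kq c x0 x (k + 1) m ∨
      d = -EI l N S Kq c x0 x (k + 1) m - MI l N S Kq c x0 x (k + 1) m) (w : ι → ℝ) :
    (d *ᵥ w) ⬝ᵥ A⁻¹ *ᵥ (d *ᵥ w) ≤ 2 * β⁻¹ * ((ah l N S (Kq x) c x0 x k m *ᵥ w) ⬝ᵥ
        (ah l N S (Kq x) c x0 x k m *ᵥ w)) +
      4 * β⁻¹ * (w ⬝ᵥ eb l N S (Kq x) c x0 x (k + 1) m *ᵥ w) := by
  refine (inv_form_le hβ h _).trans ?_
  have e0 : MI l N S Kq c x0 x (k + 1) m = ah l N S (Kq x) c x0 x k m := rfl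
  have e1 := eb_sq (S := S) (c := c) (x0 := x0) hT x k m w
  rw [e0] at hd
  set E := EI l N S Kq c x0 x (k + 1) m with hE
  have e2 : eb l N S (Kq x) c x0 x (k + 1) m = E := rfl
  rw [e2]
  set a := ah l N S (Kq x) c x0 x k m with ha
  have hb : 0 < β⁻¹ := inv_pos.2 hβ
  have key : (d *ᵥ w) ⬝ᵥ (d *ᵥ w) ≤ 2 * ((a *ᵥ w) ⬝ᵥ (a *ᵥ w)) + 2 * ((E *ᵥ w) ⬝ᵥ (E *ᵥ w)) := by
    rcases hd with hd | hd
    · have h1 : d *ᵥ w = a *ᵥ w - E *ᵥ w := by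
        rw [hd, add_mulVec, neg_mulVec]
        abel
      have h2 := dot_self_nonneg (a *ᵥ w + E *ᵥ w)
      rw [h1]
      simp only [dotProduct_add, add_dotProduct, dotProduct_sub, sub_dotProduct] at h2 ⊢
      linarith
    · have h1 : d *ᵥ w = -(a *ᵥ w + E *ᵥ w) := by
        rw [hd, sub_mulVec, neg_mulVec]
        abel
      have h2 := dot_self_nonneg (a *ᵥ w - E *ᵥ w)
      rw [h1, neg_dotProduct, dotProduct_neg, neg_neg]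
      simp only [dotProduct_add, add_dotProduct, dotProduct_sub, sub_dotProduct] at h2 ⊢
      linarith
  calc β⁻¹ * ((d *ᵥ w) ⬝ᵥ (d *ᵥ w)) ≤ β⁻¹ * (2 * ((a *ᵥ w) ⬝ᵥ (a *ᵥ w)) +
        2 * (2 * (w ⬝ᵥ E *ᵥ w))) := mul_le_mul_of_nonneg_left (by linarith) hb.le
    _ = _ := by ring

/-- charge of `ah` against the parent weight -/
theorem par_pt (hβ : 0 < β) {A : Matrix ι ι ℝ}
    (h : (A - β • (1 : Matrix ι ι ℝ)).PosSemidef) (x : ℤ) (k : ℕ) (m : ℤ) (w : ι → ℝ) :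
    (MI l N S Kq c x0 x (k + 1) m *ᵥ w) ⬝ᵥ A⁻¹ *ᵥ (MI l N S Kq c x0 x (k + 1) m *ᵥ w) ≤
      β⁻¹ * ((ah l N S (Kq x) c x0 x k m *ᵥ w) ⬝ᵥ (ah l N S (Kq x) c x0 x k m *ᵥ w)) :=
  inv_form_le hβ h _

/-! ### The sums over `x₀` at fixed `(x₁, x₃)` -/

theorem iv_succ_sum (k : ℕ) (m : ℤ) (f : ℤ → ℝ) :
    ∑ x ∈ iv (k + 1) m, f x = ∑ x ∈ iv k (2 * m), f x + ∑ x ∈ iv k (2 * m + 1), f x := by
  have e1 : iv (k + 1) m = iv k (2 * m) ∪ iv k (2 * m + 1) := by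
    ext x
    rw [mem_union, mem_iv, mem_iv, mem_iv]
    unfold PL.ix
    rw [pow_succ, ← Int.ediv_ediv_of_nonneg (by positivity)]
    omega
  rw [e1, sum_union]
  rw [disjoint_left]
  intro x hx hx'
  rw [mem_iv] at hx hx'
  omega

/-- cell sums pass to coarser cells -/
theorem cell_up {W : ℤ → ℝ} {e : ℝ} {k : ℕ} (hW : ∀ j, ∑ x ∈ iv k j, W x ≤ e * 2 ^ k) :
    ∀ r : ℕ, ∀ j, ∑ x ∈ iv (k + r) j, W x ≤ e * 2 ^ (k + r) := by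
  intro r
  induction r with
  | zero => exact hW
  | succ r ih =>
    intro j
    rw [← add_assoc, iv_succ_sum, pow_succ]
    have h1 := ih (2 * j)
    have h2 := ih (2 * j + 1)
    linarith

variable {K : ℕ} {M : ℤ}

/-- **Energy of the slot, one scale.** -/
theorem en_I {Kr Gr : ℕ → ℤ → Matrix ι ι ℝ} (hT : Tr l K Gr Kr) (w : ι → ℝ) {W : ℤ → ℝ} {e : ℝ}
    (he : 0 ≤ e) (hβ : 0 ≤ β) (hW0 : ∀ x, 0 ≤ W x) {k : ℕ} (hk : k ≤ K)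
    (hW : ∀ j, ∑ x ∈ iv k j, W x ≤ e * 2 ^ k) (t c x1 m : ℤ) :
    ∑ x ∈ iv K t, W x * (w ⬝ᵥ (β • (1 : Matrix ι ι ℝ) + Th l K M Kr c x x1 k m) *ᵥ w) ≤
      e * (2 ^ K * (β * (w ⬝ᵥ w) + 2 * l⁻¹ * (w ⬝ᵥ Gr K M *ᵥ w))) := by
  have h1 := H652.Th_all (M := M) hT w he hW0 hk hW (iv K t) c x1 m
  have h2 := cell_up hW (K - k) t
  rw [Nat.add_sub_cancel' hk] at h2
  have h3 : ∑ x ∈ iv K t, W x * (w ⬝ᵥ (β • (1 : Matrix ι ι ℝ) + Th l K M Kr c x x1 k m) *ᵥ w) =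
      β * (w ⬝ᵥ w) * ∑ x ∈ iv K t, W x +
        ∑ x ∈ iv K t, W x * (w ⬝ᵥ Th l K M Kr c x x1 k m *ᵥ w) := by
    rw [mul_sum, ← sum_add_distrib]
    refine sum_congr rfl fun x _ => ?_
    rw [add_mulVec, dotProduct_add, smul_mulVec, one_mulVec, dotProduct_smul, smul_eq_mul]
    ring
  rw [h3]
  have h4 := mul_le_mul_of_nonneg_left h2 (mul_nonneg hβ (dot_self_nonneg w))
  linarith

/-- **The moves**, all scales: with the weights of the scale of the parent. -/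
theorem mv_I {Kr Gr : ℕ → ℤ → Matrix ι ι ℝ} (hT : Tr l K Gr Kr) (w : ι → ℝ) {W : ℕ → ℤ → ℝ}
    {e : ℝ} (he : 0 ≤ e) (hβ : 0 < β) (hW0 : ∀ k x, 0 ≤ W k x)
    (hW : ∀ k ∈ Icc 1 K, ∀ j, ∑ x ∈ iv k j, W k x ≤ e * 2 ^ k) (X : Finset ℤ) (c x1 x3 : ℤ) :
    ∑ k ∈ range K, ∑ x ∈ X, W (k + 1) x *
      (5 * β⁻¹ * ((ah l K M Kr c x x1 k (ix (k + 1) x3) *ᵥ w) ⬝ᵥ
        (ah l K M Kr c x x1 k (ix (k + 1) x3) *ᵥ w)) +
      8 * β⁻¹ * (w ⬝ᵥ eb l K M Kr c x x1 (k + 1) (ix (k + 1) x3) *ᵥ w)) ≤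
    e * (2 ^ K * (40976 * β⁻¹ * l⁻¹ * (w ⬝ᵥ Gr K M *ᵥ w))) := by
  have h1 := H652.half_allW (M := M) hT w he hW0 hW X c x1 x3
  have h2 := H652.eb_allW (M := M) hT w he hW0 hW X c x1 x3
  have e2 : ∑ k ∈ Icc 1 K, ∑ x ∈ X, W k x * (w ⬝ᵥ eb l K M Kr c x x1 k (ix k x3) *ᵥ w) =
      ∑ k ∈ range K, ∑ x ∈ X, W (k + 1) x *
        (w ⬝ᵥ eb l K M Kr c x x1 (k + 1) (ix (k + 1) x3) *ᵥ w) := by
    rw [← H652.sum_range_Icc (fun k => ∑ x ∈ X, W k x *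
      (w ⬝ᵥ eb l K M Kr c x x1 k (ix k x3) *ᵥ w)) K]
  rw [e2] at h2
  have hb : 0 ≤ β⁻¹ := (inv_pos.2 hβ).le
  have h3 : ∑ k ∈ range K, ∑ x ∈ X, W (k + 1) x *
      (5 * β⁻¹ * ((ah l K M Kr c x x1 k (ix (k + 1) x3) *ᵥ w) ⬝ᵥ
        (ah l K M Kr c x x1 k (ix (k + 1) x3) *ᵥ w)) +
      8 * β⁻¹ * (w ⬝ᵥ eb l K M Kr c x x1 (k + 1) (ix (k + 1) x3) *ᵥ w)) =
      5 * β⁻¹ * (∑ k ∈ range K, ∑ x ∈ X, W (k + 1) x *
        ((ah l K M Kr c x x1 k (ix (k + 1) x3) *ᵥ w) ⬝ᵥ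
        (ah l K M Kr c x x1 k (ix (k + 1) x3) *ᵥ w))) +
      8 * β⁻¹ * (∑ k ∈ range K, ∑ x ∈ X, W (k + 1) x *
        (w ⬝ᵥ eb l K M Kr c x x1 (k + 1) (ix (k + 1) x3) *ᵥ w)) := by
    rw [mul_sum, mul_sum, ← sum_add_distrib]
    refine sum_congr rfl fun k _ => ?_
    rw [mul_sum, mul_sum, ← sum_add_distrib]
    exact sum_congr rfl fun x _ => by ring
  rw [h3]
  have h4 := mul_le_mul_of_nonneg_left h1 (mul_nonneg (by norm_num : (0:ℝ) ≤ 5) hb)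
  have h5 := mul_le_mul_of_nonneg_left h2 (mul_nonneg (by norm_num : (0:ℝ) ≤ 8) hb)
  refine (add_le_add h4 h5).trans (le_of_eq ?_)
  ring

/-- **The drift**, all scales. -/
theorem dr_I {Kr Gr : ℕ → ℤ → Matrix ι ι ℝ} (hT : Tr l K Gr Kr) (w : ι → ℝ) {W : ℕ → ℤ → ℝ}
    {e : ℝ} (he : 0 ≤ e) (hW0 : ∀ k x, 0 ≤ W k x)
    (hW : ∀ k ∈ Icc 1 K, ∀ j, ∑ x ∈ iv k j, W k x ≤ e * 2 ^ k) (X : Finset ℤ) (c x1 x3 : ℤ) :
    ∑ k ∈ range K, ∑ x ∈ X, W (k + 1) x *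
      (w ⬝ᵥ eb l K M Kr c x x1 (k + 1) (ix (k + 1) x3) *ᵥ w) ≤
    e * (2 ^ K * (2 * l⁻¹ * (w ⬝ᵥ Gr K M *ᵥ w))) := by
  have h2 := H652.eb_allW (M := M) hT w he hW0 hW X c x1 x3
  rwa [← H652.sum_range_Icc (fun k => ∑ x ∈ X, W k x *
      (w ⬝ᵥ eb l K M Kr c x x1 k (ix k x3) *ᵥ w)) K] at h2

end

end Vale.Agent.P141.H447
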