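import Vale.Agent.P141.H447.NumI2
import Vale.Agent.P141.H681.ThMax
import Vale.Agent.P141.H28.AffI
import Vale.Agent.P141.H44.PcaI
import Vale.Agent.P141.H505.SkelStack1

/-!
# P141, line (A), TI: the numbers of the moving slot

`num_TI` : the structure `H505.Sk1.Num` of the third slot at every `x₀`, with the sum of its
energy over `x₀`.
-/

namespace Vale.Agent.P141.H447

open Finset Matrix
open Vale.Agent.P141.PL (Pt iv ix cb cx mem_iv card_iv)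
open Vale.Agent.P141.H420 (Tr)
open Vale.Agent.P141.H652 (Th eb ah)
open Vale.Agent.P141.H681 (mxT le_mxT sum_mxT)
open Vale.Agent.P141.H460 (Lin)
open Vale.Agent.P141.H408 (Wg)
open Vale.Agent.P141.H44.Ti (ah' wf_Wg)
open Vale.Agent.P141.H677 (cP)
open Vale.Agent.P141.H505.Sk1
open Vale.Agent.P141.H28.AffI (GP)
open Vale.Agent.P141.H224 (cq)
open Vale.Agent.P141.H958 (PackQ)

noncomputable section

open scoped Classical

variable {ι : Type} [Fintype ι] [DecidableEq ι]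

/-! ### The energy -/

section en

variable {be l : ℝ} {K : ℕ} {S : ℤ} {G Kq : ℤ → ℕ → ℤ → Matrix ι ι ℝ}

theorem sum2_lin (X Y : Finset ℤ) (a p b : ℝ) (f g : ℤ → ℤ → ℝ) :
    ∑ x ∈ X, ∑ z ∈ Y, (a * (p * f x z) + b * g x z) =
      a * (p * ∑ x ∈ X, ∑ z ∈ Y, f x z) + b * ∑ x ∈ X, ∑ z ∈ Y, g x z := by
  simp only [sum_add_distrib, mul_sum]

/-- the local form of the weight -/
def gv (be l : ℝ) (K : ℕ) (S : ℤ) (Kq : ℤ → ℕ → ℤ → Matrix ι ι ℝ) (c : ℤ) (v : ℤ → ℤ → ι → ℝ)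
    (x z : ℤ) (k : ℕ) (x0 : ℤ) : ℝ :=
  v x z ⬝ᵥ Wg be l K S Kq c x0 x k (ix k z) *ᵥ v x z

theorem gv_eq (be l : ℝ) (K : ℕ) (S : ℤ) (Kq : ℤ → ℕ → ℤ → Matrix ι ι ℝ) (c : ℤ)
    (v : ℤ → ℤ → ι → ℝ) (x z : ℤ) (k : ℕ) (x0 : ℤ) :
    gv be l K S Kq c v x z k x0 = be * (v x z ⬝ᵥ v x z) +
      v x z ⬝ᵥ Th l K S (Kq x) c x0 x k (ix k z) *ᵥ v x z := by
  unfold gv H408.Wg
  rw [add_mulVec, dotProduct_add, smul_mulVec, one_mulVec, dotProduct_smul, smul_eq_mul]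

theorem gv_nonneg (hbe : 0 ≤ be) (hT : ∀ x, Tr l K (G x) (Kq x)) (c : ℤ) (v : ℤ → ℤ → ι → ℝ)
    (x z : ℤ) (k : ℕ) (x0 : ℤ) : 0 ≤ gv be l K S Kq c v x z k x0 := by
  rw [gv_eq]
  have h1 := H420.quad_nonneg (H652.Th_psd (M := S) (hT x) c x0 x k (ix k z)) (v x z)
  have h2 := mul_nonneg hbe (dot_self_nonneg (v x z))
  linarith

theorem gv_le (hT : ∀ x, Tr l K (G x) (Kq x)) (c : ℤ) (v : ℤ → ℤ → ι → ℝ)
    (x z : ℤ) (k : ℕ) (x0 : ℤ) :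
    gv be l K S Kq c v x z k x0 ≤ (be + 2) * (v x z ⬝ᵥ v x z) := by
  rw [gv_eq]
  have h1 := H420.quad_nonneg (H652.Th_le_two (M := S) (hT x) c x0 x k (ix k z)) (v x z)
  rw [sub_mulVec, smul_mulVec, one_mulVec, dotProduct_sub, dotProduct_smul, smul_eq_mul] at h1
  linarith

/-- **The energy of the slot at every scale.** -/
theorem en_TI (hbe : 0 ≤ be) (hT : ∀ x, Tr l K (G x) (Kq x)) {v : ℤ → ℤ → ι → ℝ}
    {Z : ℕ → Pt → ℝ} {e : ℝ} (he : 0 ≤ e) (hZ : Lin K e Z)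
    (hZ1 : ∀ k < K, ∀ m x z : ℤ, ∑ x0 ∈ iv k m, Z (k + 1) (x0, x, z) ^ 2 ≤ e * 2 ^ k)
    {QC : ℕ → ℤ → ℤ → ℤ → Prop} {R1 R3 : ℤ} {B τ : ℝ} (hB : 1 ≤ B) (hτ : 0 ≤ τ)
    (hpk : ∀ x0, PackQ K R1 R3 (fun k => QC k (ix k x0)) B)
    (hmC : ∀ x0, ∀ k < K, ∀ i j, QC k (ix k x0) i j →
      ∑ x ∈ iv k i, ∑ z ∈ iv k j, v x z ⬝ᵥ v x z ≤ τ * 4 ^ k)
    (hmono : ∀ k < K, ∀ x0 x z, ¬ QC k (ix k x0) (ix k x) (ix k z) →
      Z k (x0, x, z) ^ 2 ≤ Z (k + 1) (x0, x, z) ^ 2) (lam L : ℕ) (c T : ℤ) :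
    ∃ E : ℤ → ℝ, (∀ x0, 0 ≤ E x0) ∧
      (∀ x0, ∀ k ≤ K, ∑ x ∈ iv K R1, ∑ z ∈ iv K R3,
        Z k (x0, x, z) ^ 2 * gv be l K S Kq c v x z k x0 ≤ E x0) ∧
      (∀ x0, ∀ k < K, ∑ x ∈ iv K R1, ∑ z ∈ iv K R3,
        Z (k + 1) (x0, x, z) ^ 2 * gv be l K S Kq c v x z k x0 ≤ E x0) ∧
      ∑ x0 ∈ iv K T, E x0 ≤ ((lam : ℝ) + 1) * (2 * e) * (2 ^ K *
          ∑ x ∈ iv K R1, ∑ z ∈ iv K R3, ((be + 2 / 2 ^ L) * (v x z ⬝ᵥ v x z) +
            10 * L * l⁻¹ * (v x z ⬝ᵥ G x K S *ᵥ v x z))) +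
        2 * e * ((be + 2) * (2 ^ K * (τ * ((1 - 1 / B) ^ lam * (B * 4 ^ K))))) := by
  have key : ∀ x z : ℤ, ∃ E : ℤ → ℝ, (∀ x0, 0 ≤ E x0) ∧
      (∀ k ≤ K, ∀ x0, Z k (x0, x, z) ^ 2 * gv be l K S Kq c v x z k x0 ≤ E x0) ∧
      (∀ k < K, ∀ x0, Z (k + 1) (x0, x, z) ^ 2 * gv be l K S Kq c v x z k x0 ≤ E x0) ∧
      ∑ x0 ∈ iv K T, E x0 ≤ ((lam : ℝ) + 1) * (2 * e) * ∑ x0 ∈ iv K T,
          (be * (v x z ⬝ᵥ v x z) + mxT l K S (Kq x) (v x z) L c x z x0) +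
        2 * e * ((be + 2) * (v x z ⬝ᵥ v x z) * ∑ x0 ∈ iv K T,
          ((cq (fun k j => QC k j (ix k x) (ix k z)) K 0 x0 - lam : ℕ) : ℝ)) := by
    intro x z
    exact supQ2 (X := gv be l K S Kq c v x z) (W := fun k x0 => Z k (x0, x, z) ^ 2)
      (Φ := fun x0 => be * (v x z ⬝ᵥ v x z) + mxT l K S (Kq x) (v x z) L c x z x0)
      (a := fun k j => QC k j (ix k x) (ix k z)) (cp := (be + 2) * (v x z ⬝ᵥ v x z))
      (fun k x0 => gv_nonneg hbe hT c v x z k x0) he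
      (mul_nonneg (by linarith) (dot_self_nonneg _)) (fun k _ x0 => gv_le hT c v x z k x0)
      (fun k hk x0 x0' hx0' => by
        rw [gv_eq]
        have h1 := le_mxT (M := S) (hT x) (v x z) L c x z hk (mem_iv.1 hx0')
        linarith)
      (fun k x0 => sq_nonneg _) (fun k hk x0 h => hmono k hk x0 x z h)
      (fun k hk j => hZ k hk j x z) (fun k hk j => hZ1 k hk j x z) lam T
  choose E hE0 hE1 hE2 hE3 using key
  refine ⟨fun x0 => ∑ x ∈ iv K R1, ∑ z ∈ iv K R3, E x z x0,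
    fun x0 => sum_nonneg fun x _ => sum_nonneg fun z _ => hE0 x z x0,
    fun x0 k hk => sum_le_sum fun x _ => sum_le_sum fun z _ => hE1 x z k hk x0,
    fun x0 k hk => sum_le_sum fun x _ => sum_le_sum fun z _ => hE2 x z k hk x0, ?_⟩
  have e1 : ∑ x0 ∈ iv K T, ∑ x ∈ iv K R1, ∑ z ∈ iv K R3, E x z x0 =
      ∑ x ∈ iv K R1, ∑ z ∈ iv K R3, ∑ x0 ∈ iv K T, E x z x0 := by
    rw [sum_comm]
    refine sum_congr rfl fun x _ => ?_
    rw [sum_comm]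
  rw [e1]
  have h2 : ∀ x z : ℤ, ∑ x0 ∈ iv K T,
      (be * (v x z ⬝ᵥ v x z) + mxT l K S (Kq x) (v x z) L c x z x0) ≤
      2 ^ K * ((be + 2 / 2 ^ L) * (v x z ⬝ᵥ v x z) +
        10 * L * l⁻¹ * (v x z ⬝ᵥ G x K S *ᵥ v x z)) := by
    intro x z
    have h3 := sum_mxT (M := S) (hT x) (v x z) L c x z T
    rw [sum_add_distrib, sum_const, card_iv, nsmul_eq_mul]
    push_cast
    have e3 : (2 : ℝ) ^ K * ((be + 2 / 2 ^ L) * (v x z ⬝ᵥ v x z) +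
        10 * L * l⁻¹ * (v x z ⬝ᵥ G x K S *ᵥ v x z)) = 2 ^ K * (be * (v x z ⬝ᵥ v x z)) +
        2 ^ K * (10 * L * l⁻¹ * (v x z ⬝ᵥ G x K S *ᵥ v x z) + 2 / 2 ^ L * (v x z ⬝ᵥ v x z)) := by
      ring
    rw [e3]
    linarith
  have h4 : ∑ x ∈ iv K R1, ∑ z ∈ iv K R3, (v x z ⬝ᵥ v x z) * ∑ x0 ∈ iv K T,
      ((cq (fun k j => QC k j (ix k x) (ix k z)) K 0 x0 - lam : ℕ) : ℝ) ≤
      2 ^ K * (τ * ((1 - 1 / B) ^ lam * (B * 4 ^ K))) := by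
    have e4 : ∑ x ∈ iv K R1, ∑ z ∈ iv K R3, (v x z ⬝ᵥ v x z) * ∑ x0 ∈ iv K T,
        ((cq (fun k j => QC k j (ix k x) (ix k z)) K 0 x0 - lam : ℕ) : ℝ) =
        ∑ x0 ∈ iv K T, ∑ x ∈ iv K R1, ∑ z ∈ iv K R3, (v x z ⬝ᵥ v x z) *
          ((cq (fun k j => QC k j (ix k x) (ix k z)) K 0 x0 - lam : ℕ) : ℝ) := by
      rw [sum_comm (s := iv K T)]
      refine sum_congr rfl fun x _ => ?_
      rw [sum_comm (s := iv K T)]
      refine sum_congr rfl fun z _ => ?_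
      rw [mul_sum]
    rw [e4]
    have h5 : ∀ x0 ∈ iv K T, ∑ x ∈ iv K R1, ∑ z ∈ iv K R3, (v x z ⬝ᵥ v x z) *
        ((cq (fun k j => QC k j (ix k x) (ix k z)) K 0 x0 - lam : ℕ) : ℝ) ≤
        τ * ((1 - 1 / B) ^ lam * (B * 4 ^ K)) := fun x0 _ =>
      H224.sum_cq hB hτ (hpk x0) (c := fun x z => v x z ⬝ᵥ v x z) (hmC x0) lam
    have h6 := sum_le_card_nsmul _ _ _ h5
    rw [card_iv, nsmul_eq_mul] at h6
    push_cast at h6
    exact h6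
  have he2 : 0 ≤ ((lam : ℝ) + 1) * (2 * e) := by positivity
  calc ∑ x ∈ iv K R1, ∑ z ∈ iv K R3, ∑ x0 ∈ iv K T, E x z x0
      ≤ ∑ x ∈ iv K R1, ∑ z ∈ iv K R3, (((lam : ℝ) + 1) * (2 * e) * (2 ^ K *
          ((be + 2 / 2 ^ L) * (v x z ⬝ᵥ v x z) + 10 * L * l⁻¹ * (v x z ⬝ᵥ G x K S *ᵥ v x z))) +
        2 * e * (be + 2) * ((v x z ⬝ᵥ v x z) * ∑ x0 ∈ iv K T,
          ((cq (fun k j => QC k j (ix k x) (ix k z)) K 0 x0 - lam : ℕ) : ℝ))) := by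
        refine sum_le_sum fun x _ => sum_le_sum fun z _ => (hE3 x z).trans ?_
        have h7 := mul_le_mul_of_nonneg_left (h2 x z) he2
        have e7 : 2 * e * ((be + 2) * (v x z ⬝ᵥ v x z) * ∑ x0 ∈ iv K T,
          ((cq (fun k j => QC k j (ix k x) (ix k z)) K 0 x0 - lam : ℕ) : ℝ)) =
          2 * e * (be + 2) * ((v x z ⬝ᵥ v x z) * ∑ x0 ∈ iv K T,
          ((cq (fun k j => QC k j (ix k x) (ix k z)) K 0 x0 - lam : ℕ) : ℝ)) := by ring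
        rw [e7]
        linarith
    _ = ((lam : ℝ) + 1) * (2 * e) * (2 ^ K *
          ∑ x ∈ iv K R1, ∑ z ∈ iv K R3, ((be + 2 / 2 ^ L) * (v x z ⬝ᵥ v x z) +
            10 * L * l⁻¹ * (v x z ⬝ᵥ G x K S *ᵥ v x z))) +
        2 * e * (be + 2) * ∑ x ∈ iv K R1, ∑ z ∈ iv K R3, (v x z ⬝ᵥ v x z) * ∑ x0 ∈ iv K T,
          ((cq (fun k j => QC k j (ix k x) (ix k z)) K 0 x0 - lam : ℕ) : ℝ) := by
        exact sum2_lin _ _ _ _ _ _ _
    _ ≤ _ := by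
        have h8 := mul_le_mul_of_nonneg_left h4 (show 0 ≤ 2 * e * (be + 2) by positivity)
        have e8 : 2 * e * ((be + 2) * (2 ^ K * (τ * ((1 - 1 / B) ^ lam * (B * 4 ^ K))))) =
          2 * e * (be + 2) * (2 ^ K * (τ * ((1 - 1 / B) ^ lam * (B * 4 ^ K)))) := by ring
        rw [e8]
        exact add_le_add le_rfl h8

end en

/-! ### The variation -/

section mv

variable {be l : ℝ} {K : ℕ} {S : ℤ} {G Kq : ℤ → ℕ → ℤ → Matrix ι ι ℝ}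

omit [DecidableEq ι] in
theorem quad_smul (A : Matrix ι ι ℝ) (r : ℝ) (w : ι → ℝ) :
    (r • w) ⬝ᵥ A *ᵥ (r • w) = r ^ 2 * (w ⬝ᵥ A *ᵥ w) := by
  rw [mulVec_smul, dotProduct_smul, smul_dotProduct, smul_eq_mul, smul_eq_mul]
  ring

omit [DecidableEq ι] in
theorem sq_smul (A : Matrix ι ι ℝ) (r : ℝ) (w : ι → ℝ) :
    (A *ᵥ (r • w)) ⬝ᵥ (A *ᵥ (r • w)) = r ^ 2 * ((A *ᵥ w) ⬝ᵥ (A *ᵥ w)) := by
  rw [mulVec_smul, dotProduct_smul, smul_dotProduct, smul_eq_mul, smul_eq_mul]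
  ring

/-- the quadratic variation at a point -/
theorem eM_le (hbe : 0 < be) (hT : ∀ x, Tr l K (G x) (Kq x)) (c x0 : ℤ) (f : ℤ → ℤ → ι → ℝ)
    (v : ℤ → ℤ → ι → ℝ) (r : ℝ) (k : ℕ) (x z : ℤ) (hf : f x z = r • v x z) :
    eM f (fun x k m => Wg be l K S Kq c x0 x k m) (fun x k m => ah' l K S Kq c x0 x k m) k x z ≤
      r ^ 2 * (5 * be⁻¹ * ((ah l K S (Kq x) c x0 x k (ix (k + 1) z) *ᵥ v x z) ⬝ᵥ
        (ah l K S (Kq x) c x0 x k (ix (k + 1) z) *ᵥ v x z)) +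
      8 * be⁻¹ * (v x z ⬝ᵥ eb l K S (Kq x) c x0 x (k + 1) (ix (k + 1) z) *ᵥ v x z)) := by
  set m := ix (k + 1) z with hm
  have hix : ix (k + 1) z = ix k z / 2 := by
    unfold PL.ix
    rw [pow_succ, ← Int.ediv_ediv_of_nonneg (by positivity)]
  have hpar : ix k z = 2 * m ∨ ix k z = 2 * m + 1 := by omega
  have hd : dTh (fun x k m => Wg be l K S Kq c x0 x k m) k x z =
      -EI l K S Kq c x0 x (k + 1) m + MI l K S Kq c x0 x (k + 1) m ∨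
      dTh (fun x k m => Wg be l K S Kq c x0 x k m) k x z =
      -EI l K S Kq c x0 x (k + 1) m - MI l K S Kq c x0 x (k + 1) m := by
    unfold dTh
    beta_reduce
    rw [← hm]
    rcases hpar with h | h
    · left
      rw [h]
      have e := WI_left (β := be) (l := l) (N := K) (S := S) (Kq := Kq) (c := c) (x0 := x0) x k m
      change Wg be l K S Kq c x0 x k (2 * m) = Wg be l K S Kq c x0 x (k + 1) m + _ + _ at e
      rw [e]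
      abel
    · right
      rw [h]
      have e := WI_right (β := be) (l := l) (N := K) (S := S) (Kq := Kq) (c := c) (x0 := x0) x k m
      change Wg be l K S Kq c x0 x k (2 * m + 1) = Wg be l K S Kq c x0 x (k + 1) m + _ - _ at e
      rw [e]
      abel
  have h1 := par_pt (A := Wg be l K S Kq c x0 x (k + 1) m) hbe
    (WI_ge (β := be) (S := S) (c := c) (x0 := x0) hT x (k + 1) m) (l := l) (N := K) (S := S)
    (Kq := Kq) (c := c) (x0 := x0) x k m (f x z)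
  have h2 := child_pt (A := Wg be l K S Kq c x0 x k (ix k z)) hbe hT
    (WI_ge (β := be) (S := S) (c := c) (x0 := x0) hT x k (ix k z)) x k m hd (f x z)
  have e1 : MI l K S Kq c x0 x (k + 1) m = ah' l K S Kq c x0 x (k + 1) m := rfl
  rw [e1] at h1
  rw [hf, sq_smul] at h1 h2
  rw [quad_smul (eb l K S (Kq x) c x0 x (k + 1) m)] at h2
  unfold eM
  beta_reduce
  rw [← hm, hf]
  have h3 : 0 ≤ r ^ 2 * ((ah l K S (Kq x) c x0 x k m *ᵥ v x z) ⬝ᵥ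
      (ah l K S (Kq x) c x0 x k m *ᵥ v x z)) := mul_nonneg (sq_nonneg _) (dot_self_nonneg _)
  have h4 : 0 ≤ r ^ 2 * (v x z ⬝ᵥ eb l K S (Kq x) c x0 x (k + 1) m *ᵥ v x z) :=
    mul_nonneg (sq_nonneg _) (H420.quad_nonneg (H652.eb_psd (M := S) (hT x) c x0 x (k + 1) m) _)
  have hb : 0 < be⁻¹ := inv_pos.2 hbe
  have h5 := mul_nonneg hb.le h3
  have h6 := mul_nonneg hb.le h4
  nlinarith

theorem comm3 (X Y Z' : Finset ℤ) (I : Finset ℕ) (f : ℤ → ℕ → ℤ → ℤ → ℝ) :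
    ∑ x0 ∈ X, ∑ k ∈ I, ∑ x ∈ Y, ∑ z ∈ Z', f x0 k x z =
      ∑ x ∈ Y, ∑ z ∈ Z', ∑ k ∈ I, ∑ x0 ∈ X, f x0 k x z := by
  calc ∑ x0 ∈ X, ∑ k ∈ I, ∑ x ∈ Y, ∑ z ∈ Z', f x0 k x z
      = ∑ k ∈ I, ∑ x0 ∈ X, ∑ x ∈ Y, ∑ z ∈ Z', f x0 k x z := sum_comm
    _ = ∑ k ∈ I, ∑ x ∈ Y, ∑ x0 ∈ X, ∑ z ∈ Z', f x0 k x z :=
        sum_congr rfl fun k _ => sum_comm
    _ = ∑ x ∈ Y, ∑ k ∈ I, ∑ x0 ∈ X, ∑ z ∈ Z', f x0 k x z := sum_comm
    _ = ∑ x ∈ Y, ∑ k ∈ I, ∑ z ∈ Z', ∑ x0 ∈ X, f x0 k x z :=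
        sum_congr rfl fun x _ => sum_congr rfl fun k _ => sum_comm
    _ = _ := sum_congr rfl fun x _ => sum_comm

/-- **The variation and the drift of the slot, summed over `x₀`.** -/
theorem mv_TI (hbe : 0 < be) (hT : ∀ x, Tr l K (G x) (Kq x)) {v : ℤ → ℤ → ι → ℝ}
    {Z : ℕ → Pt → ℝ} {e : ℝ} (he : 0 ≤ e) (hZ : Lin K e Z) {f : ℤ → ℕ → ℤ → ℤ → ι → ℝ}
    {R1 R3 : ℤ} (hf : ∀ x0, ∀ k < K, ∀ x ∈ iv K R1, ∀ z ∈ iv K R3,
      f x0 (k + 1) x z = Z (k + 1) (x0, x, z) • v x z) (c T : ℤ) :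
    ∑ x0 ∈ iv K T, ∑ k ∈ range K, ∑ x ∈ iv K R1, ∑ z ∈ iv K R3,
      eM (f x0 (k + 1)) (fun x k m => Wg be l K S Kq c x0 x k m)
        (fun x k m => ah' l K S Kq c x0 x k m) k x z ≤
      e * (2 ^ K * (40976 * be⁻¹ * l⁻¹ * ∑ x ∈ iv K R1, ∑ z ∈ iv K R3,
        v x z ⬝ᵥ G x K S *ᵥ v x z)) := by
  rw [comm3]
  have h1 : ∀ x ∈ iv K R1, ∀ z ∈ iv K R3, ∑ k ∈ range K, ∑ x0 ∈ iv K T,
      eM (f x0 (k + 1)) (fun x k m => Wg be l K S Kq c x0 x k m)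
        (fun x k m => ah' l K S Kq c x0 x k m) k x z ≤
      e * (2 ^ K * (40976 * be⁻¹ * l⁻¹ * (v x z ⬝ᵥ G x K S *ᵥ v x z))) := by
    intro x hx z hz
    have h2 := mv_I (M := S) (hT x) (v x z) (W := fun k x0 => Z k (x0, x, z) ^ 2) he hbe
      (fun k x0 => sq_nonneg _) (fun k hk j => hZ k (mem_Icc.1 hk).2 j x z) (iv K T) c x z
    refine le_trans (sum_le_sum fun k hk => sum_le_sum fun x0 _ => ?_) h2
    exact eM_le hbe hT c x0 (f x0 (k + 1)) v _ k x z (hf x0 k (mem_range.1 hk) x hx z hz)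
  refine (sum_le_sum fun x hx => sum_le_sum fun z hz => h1 x hx z hz).trans (le_of_eq ?_)
  simp only [mul_sum]

theorem dr_TI (hT : ∀ x, Tr l K (G x) (Kq x)) {v : ℤ → ℤ → ι → ℝ}
    {Z : ℕ → Pt → ℝ} {e : ℝ} (he : 0 ≤ e) (hZ : Lin K e Z) {f : ℤ → ℕ → ℤ → ℤ → ι → ℝ}
    {R1 R3 : ℤ} (hf : ∀ x0, ∀ k < K, ∀ x ∈ iv K R1, ∀ z ∈ iv K R3,
      f x0 (k + 1) x z = Z (k + 1) (x0, x, z) • v x z) (c T : ℤ) :
    ∑ x0 ∈ iv K T, ∑ k ∈ range K, ∑ x ∈ iv K R1, ∑ z ∈ iv K R3,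
      f x0 (k + 1) x z ⬝ᵥ eb l K S (Kq x) c x0 x (k + 1) (ix (k + 1) z) *ᵥ f x0 (k + 1) x z ≤
      e * (2 ^ K * (2 * l⁻¹ * ∑ x ∈ iv K R1, ∑ z ∈ iv K R3,
        v x z ⬝ᵥ G x K S *ᵥ v x z)) := by
  rw [comm3]
  have h1 : ∀ x ∈ iv K R1, ∀ z ∈ iv K R3, ∑ k ∈ range K, ∑ x0 ∈ iv K T,
      f x0 (k + 1) x z ⬝ᵥ eb l K S (Kq x) c x0 x (k + 1) (ix (k + 1) z) *ᵥ f x0 (k + 1) x z ≤
      e * (2 ^ K * (2 * l⁻¹ * (v x z ⬝ᵥ G x K S *ᵥ v x z))) := by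
    intro x hx z hz
    have h2 := dr_I (M := S) (hT x) (v x z) (W := fun k x0 => Z k (x0, x, z) ^ 2) he
      (fun k x0 => sq_nonneg _) (fun k hk j => hZ k (mem_Icc.1 hk).2 j x z) (iv K T) c x z
    refine le_trans (sum_le_sum fun k hk => sum_le_sum fun x0 _ => ?_) h2
    rw [hf x0 k (mem_range.1 hk) x hx z hz, quad_smul]
  refine (sum_le_sum fun x hx => sum_le_sum fun z hz => h1 x hx z hz).trans (le_of_eq ?_)
  simp only [mul_sum]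

end mv

/-! ### The affected cells -/

section af

variable {be l : ℝ} {K : ℕ} {S : ℤ} {G Kq : ℤ → ℕ → ℤ → Matrix ι ι ℝ}

/-- **The slot on the affected cells, summed over `x₀`.** -/
theorem af_TI (hbe : 0 ≤ be) (hT : ∀ x, Tr l K (G x) (Kq x)) {v : ℤ → ℤ → ι → ℝ}
    {Z : ℕ → Pt → ℝ} {e : ℝ} (he : 0 ≤ e) (hZ : Lin K e Z)
    (hZ1 : ∀ k < K, ∀ m x z : ℤ, ∑ x0 ∈ iv k m, Z (k + 1) (x0, x, z) ^ 2 ≤ e * 2 ^ k)
    {Af : ℕ → Pt → Prop} {P : ℝ} (hP : 0 ≤ P) (hA : GP Af K P) {R1 R3 : ℤ} {τ : ℝ} (hτ : 0 ≤ τ)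
    (hm : ∀ k ≤ K, ∀ m : Pt, m.2.1 ∈ iv (K - k) R1 → m.2.2 ∈ iv (K - k) R3 → Af k m →
      ∑ x1 ∈ iv k m.2.1, ∑ x3 ∈ iv k m.2.2, v x1 x3 ⬝ᵥ v x1 x3 ≤ τ * 4 ^ k)
    {h : ℕ} (hh : 1 ≤ h) (hPh : 2 * (4 * P) ≤ h) (q : ℕ) (c T : ℤ) :
    ∑ x0 ∈ iv K T, ∑ k ∈ range K, ∑ x ∈ iv K R1, ∑ z ∈ iv K R3,
      (if Af k (ix k x0, ix k x, ix k z) then Z (k + 1) (x0, x, z) ^ 2 *
        gv be l K S Kq c v x z k x0 else 0) ≤
      be * (e * τ * P * 8 ^ K) + 4 * e * ((1 + h * q) * (2 ^ K * ((2 * l)⁻¹ *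
        ∑ x ∈ iv K R1, ∑ z ∈ iv K R3, v x z ⬝ᵥ G x K S *ᵥ v x z)) +
        τ * (4 * P) * (1 / 2) ^ q * 8 ^ K) := by
  set Z' : ℕ → Pt → ℝ := fun k x => Z (min (k + 1) K) x with hZ'
  have hZL : Lin K e Z' := by
    intro k hk m x z
    rcases hk.lt_or_eq with h1 | h1
    · have h2 := hZ1 k h1 m x z
      simp only [hZ']
      rwa [min_eq_left (by omega : k + 1 ≤ K)]
    · subst h1
      simp only [hZ']
      rw [min_eq_right (Nat.le_succ k)]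
      exact hZ k le_rfl m x z
  have h1 := H28.AffI.aff_W (M2 := S) (M1 := R1) (M3 := R3) (fun x _ => hT x) hP hA he hZL v hτ
    hm hh hPh q c T hbe
  have h2 : ∑ x0 ∈ iv K T, ∑ k ∈ range K, ∑ x ∈ iv K R1, ∑ z ∈ iv K R3,
      (if Af k (ix k x0, ix k x, ix k z) then Z (k + 1) (x0, x, z) ^ 2 *
        gv be l K S Kq c v x z k x0 else 0) ≤
      ∑ k ∈ range (K + 1), ∑ x ∈ cb K (T, R1, R3), (if Af k (cx k x) then Z' k x ^ 2 *
        (v x.2.1 x.2.2 ⬝ᵥ (be • (1 : Matrix ι ι ℝ) +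
          Th l K S (Kq x.2.1) c x.1 x.2.1 k (ix k x.2.2)) *ᵥ v x.2.1 x.2.2) else 0) := by
    rw [sum_comm, sum_range_succ]
    have h3 : 0 ≤ ∑ x ∈ cb K (T, R1, R3), (if Af K (cx K x) then Z' K x ^ 2 *
        (v x.2.1 x.2.2 ⬝ᵥ (be • (1 : Matrix ι ι ℝ) +
          Th l K S (Kq x.2.1) c x.1 x.2.1 K (ix K x.2.2)) *ᵥ v x.2.1 x.2.2) else 0) := by
      refine sum_nonneg fun x _ => ?_
      split_ifs
      · exact mul_nonneg (sq_nonneg _) (gv_nonneg hbe hT c v x.2.1 x.2.2 K x.1)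
      · exact le_rfl
    refine le_trans (sum_le_sum fun k hk => le_of_eq ?_) (le_add_of_nonneg_right h3)
    rw [mem_range] at hk
    unfold PL.cb
    rw [sum_product]
    refine sum_congr rfl fun x0 _ => ?_
    rw [sum_product]
    refine sum_congr rfl fun x _ => sum_congr rfl fun z _ => ?_
    simp only [hZ']
    rw [min_eq_left (by omega : k + 1 ≤ K)]
    rfl
  refine h2.trans (h1.trans (le_of_eq ?_))
  simp only [mul_sum]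

/-- **A plane sum is at most the sum over the squares `(x₁, x₃)`.** -/
theorem GW_le {N k : ℕ} (R S' T c : ℤ) {g : ℤ → ℤ → ℤ → ℝ} {f : ℤ → ℤ → ℝ}
    (hf : ∀ n1 m, 0 ≤ f n1 m)
    (hg : ∀ n2 ∈ iv (N - k) R, ∀ n1 ∈ iv (N - k) T, ∀ m ∈ iv (N - k) S', n2 + n1 + m = c →
      g n2 n1 m ≤ f n1 m) :
    H103.GW N R S' T k c g ≤ 4 ^ k * ∑ n1 ∈ iv (N - k) T, ∑ m ∈ iv (N - k) S', f n1 m := by
  unfold H103.GW
  refine mul_le_mul_of_nonneg_left ?_ (by positivity)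
  rw [sum_comm (s := iv (N - k) T)]
  refine sum_le_sum fun m hm => ?_
  rw [← sum_filter]
  have h1 : ∑ n ∈ (iv (N - k) R).filter (fun n => c - m - n ∈ iv (N - k) T), g n (c - m - n) m ≤
      ∑ n ∈ (iv (N - k) R).filter (fun n => c - m - n ∈ iv (N - k) T), f (c - m - n) m := by
    refine sum_le_sum fun n hn => ?_
    obtain ⟨h2, h3⟩ := mem_filter.1 hn
    exact hg n h2 _ h3 m hm (by ring)
  refine h1.trans ?_
  have h2 : ∑ n ∈ (iv (N - k) R).filter (fun n => c - m - n ∈ iv (N - k) T), f (c - m - n) m =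
      ∑ n1 ∈ ((iv (N - k) R).filter (fun n => c - m - n ∈ iv (N - k) T)).image
        (fun n => c - m - n), f n1 m := by
    rw [sum_image]
    intro a _ b _ hab
    simp only at hab
    omega
  rw [h2]
  refine sum_le_sum_of_subset_of_nonneg ?_ fun n1 _ _ => hf n1 m
  intro n1 hn1
  obtain ⟨n, hn, rfl⟩ := mem_image.1 hn1
  exact (mem_filter.1 hn).2

theorem up_iv {K k : ℕ} (hk : k ≤ K) {x n R : ℤ} (hx : x ∈ iv k n) (hn : n ∈ iv (K - k) R) :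
    x ∈ iv K R := by
  rw [mem_iv] at hx hn ⊢
  rw [← hn, ← hx, PL.ix_ix, Nat.add_sub_cancel' hk]

/-- the sum over the squares of a scale is the sum over the points -/
theorem sq_pts {K k : ℕ} (hk : k ≤ K) (R1 R3 : ℤ) (p : ℤ → ℤ → Prop) (f : ℤ → ℤ → ℝ) :
    ∑ n ∈ iv (K - k) R1, ∑ m ∈ iv (K - k) R3, (if p n m then
      ∑ x ∈ iv k n, ∑ z ∈ iv k m, f x z else 0) =
      ∑ x ∈ iv K R1, ∑ z ∈ iv K R3, (if p (ix k x) (ix k z) then f x z else 0) := by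
  rw [H460.iv_part hk R1]
  refine sum_congr rfl fun n _ => ?_
  rw [sum_congr rfl fun x _ => H460.iv_part hk R3 _, sum_comm]
  refine sum_congr rfl fun m _ => ?_
  split_ifs with h
  · refine sum_congr rfl fun x hx => sum_congr rfl fun z hz => ?_
    rw [mem_iv.1 hx, mem_iv.1 hz, if_pos h]
  · symm
    refine sum_eq_zero fun x hx => sum_eq_zero fun z hz => ?_
    rw [mem_iv.1 hx, mem_iv.1 hz, if_neg h]

end af

/-! ### The structure -/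

/-- the number of the slot -/
def nTI (be l e τ P B : ℝ) (K lam L h q : ℕ) (vv vG : ℝ) : ℝ :=
  (((lam : ℝ) + 1) * (2 * e) * (2 ^ K * ((be + 2 / 2 ^ L) * vv + 10 * L * l⁻¹ * vG)) +
    2 * e * ((be + 2) * (2 ^ K * (τ * ((1 - 1 / B) ^ lam * (B * 4 ^ K)))))) +
  e * (2 ^ K * (40976 * be⁻¹ * l⁻¹ * vG)) + e * (2 ^ K * (2 * l⁻¹ * vG)) +
  (be * (e * τ * P * 8 ^ K) + 4 * e * ((1 + h * q) * (2 ^ K * ((2 * l)⁻¹ * vG)) +
    τ * (4 * P) * (1 / 2) ^ q * 8 ^ K))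

section num

variable {be l : ℝ} {K : ℕ} {S : ℤ} {G Kq : ℤ → ℕ → ℤ → Matrix ι ι ℝ}

/-- **The numbers of the moving slot at every `x₀`.** -/
theorem num_core (hbe : 0 < be) (hT : ∀ x, Tr l K (G x) (Kq x)) {v : ℤ → ℤ → ι → ℝ}
    {Z : ℕ → Pt → ℝ} {e : ℝ} (he : 0 ≤ e) (hZ : Lin K e Z)
    (hZ1 : ∀ k < K, ∀ m x z : ℤ, ∑ x0 ∈ iv k m, Z (k + 1) (x0, x, z) ^ 2 ≤ e * 2 ^ k)
    {QC : ℕ → ℤ → ℤ → ℤ → Prop} {R1 R2 R3 : ℤ} {B τ : ℝ} (hB : 1 ≤ B) (hτ : 0 ≤ τ)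
    (hpk : ∀ x0, PackQ K R1 R3 (fun k => QC k (ix k x0)) B)
    (hmC : ∀ x0, ∀ k < K, ∀ i j, QC k (ix k x0) i j →
      ∑ x ∈ iv k i, ∑ z ∈ iv k j, v x z ⬝ᵥ v x z ≤ τ * 4 ^ k)
    (hmono : ∀ k < K, ∀ x0 x z, ¬ QC k (ix k x0) (ix k x) (ix k z) →
      Z k (x0, x, z) ^ 2 ≤ Z (k + 1) (x0, x, z) ^ 2)
    {Af : ℕ → Pt → Prop} {P : ℝ} (hP : 0 ≤ P) (hA : GP Af K P)
    (hm : ∀ k ≤ K, ∀ m : Pt, m.2.1 ∈ iv (K - k) R1 → m.2.2 ∈ iv (K - k) R3 → Af k m →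
      ∑ x1 ∈ iv k m.2.1, ∑ x3 ∈ iv k m.2.2, v x1 x3 ⬝ᵥ v x1 x3 ≤ τ * 4 ^ k)
    {h : ℕ} (hh : 1 ≤ h) (hPh : 2 * (4 * P) ≤ h) (lam L q : ℕ) (c : ℤ) (pl : ℤ → ℕ → ℤ)
    (A : ℤ → ℕ → ℤ → ℤ → ℝ) (b f : ℤ → ℕ → ℤ → ℤ → ι → ℝ)
    (hf : ∀ x0, ∀ k ≤ K, ∀ x ∈ iv K R1, ∀ z ∈ iv K R3, f x0 k x z = Z k (x0, x, z) • v x z)
    (hfK : ∀ x0 x z, f x0 (K + 1) x z = f x0 K x z)
    (hcr : ∀ x0, ∀ k < K, ∀ n2 ∈ iv (K - k) R2, ∀ n1 ∈ iv (K - k) R1, ∀ m ∈ iv (K - k) R3,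
      n2 + n1 + m = pl x0 k → (Ch (A x0) k n2 m ∨ Ch (b x0) k n1 n2 ∨ Ch (f x0) k n1 m) →
      Af k (ix k x0, n1, m))
    (hbo : ∀ x0, ∀ k < K, ∀ n1 ∈ iv (K - k) R1, ∀ m ∈ iv (K - k) R3, Ch (f x0) k n1 m →
      Af k (ix k x0, n1, m)) (cC : ℝ) :
    ∃ E : ℤ → ℝ, (∀ x0, 0 ≤ E x0) ∧ (∀ x0,
      (∀ k a n m, 0 ≤ k → 0 ≤ a → k ≤ K → a ≤ K → ∀ j, min k a ≤ j → j ≤ min k a + 1 →
        n ∈ iv (K - a) R1 → m ∈ iv (K - k) R3 →
        (cC ^ 2 • (1 : Matrix (P075.Ix k) (P075.Ix k) ℝ) -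
          W3 (f x0 j) (fun x k m => Wg be l K S Kq c x0 x k m) k a n m).PosSemidef) →
      Num 0 K R1 R2 R3 (pl x0) (A x0) (b x0) (f x0) (fun x k m => Wg be l K S Kq c x0 x k m)
        (fun x k m => ah' l K S Kq c x0 x k m) (fun x k m => eb l K S (Kq x) c x0 x k m)
        (E x0) cC) ∧
      ∀ T, ∑ x0 ∈ iv K T, E x0 ≤ nTI be l e τ P B K lam L h q
        (∑ x ∈ iv K R1, ∑ z ∈ iv K R3, v x z ⬝ᵥ v x z)
        (∑ x ∈ iv K R1, ∑ z ∈ iv K R3, v x z ⬝ᵥ G x K S *ᵥ v x z) := by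
  have hEn := fun T => en_TI (S := S) (R1 := R1) (R3 := R3) hbe.le hT he hZ hZ1 hB hτ hpk hmC hmono lam L c T
  choose En hEn0 hEn1 hEn2 hEn3 using hEn
  set V : ℤ → ℝ := fun x0 => ∑ k ∈ range K, ∑ x ∈ iv K R1, ∑ z ∈ iv K R3,
      eM (f x0 (k + 1)) (fun x k m => Wg be l K S Kq c x0 x k m)
        (fun x k m => ah' l K S Kq c x0 x k m) k x z with hV
  set D : ℤ → ℝ := fun x0 => ∑ k ∈ range K, ∑ x ∈ iv K R1, ∑ z ∈ iv K R3,
      f x0 (k + 1) x z ⬝ᵥ eb l K S (Kq x) c x0 x (k + 1) (ix (k + 1) z) *ᵥ f x0 (k + 1) x z with hD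
  set Q : ℤ → ℝ := fun x0 => ∑ k ∈ range K, ∑ x ∈ iv K R1, ∑ z ∈ iv K R3,
      (if Af k (ix k x0, ix k x, ix k z) then Z (k + 1) (x0, x, z) ^ 2 *
        gv be l K S Kq c v x z k x0 else 0) with hQ
  have hWpd : ∀ x0 x k m, (Wg be l K S Kq c x0 x k m).PosDef := fun x0 x k m =>
    H408.Wg_pd hbe hT c x0 x k m
  have hV0 : ∀ x0, 0 ≤ V x0 := by
    intro x0
    refine sum_nonneg fun k _ => sum_nonneg fun x _ => sum_nonneg fun z _ => ?_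
    unfold eM
    exact add_nonneg (H420.quad_nonneg (hWpd x0 x _ _).inv.posSemidef _)
      (H420.quad_nonneg (hWpd x0 x _ _).inv.posSemidef _)
  have hD0 : ∀ x0, 0 ≤ D x0 := by
    intro x0
    refine sum_nonneg fun k _ => sum_nonneg fun x _ => sum_nonneg fun z _ => ?_
    exact H420.quad_nonneg (H652.eb_psd (M := S) (hT x) c x0 x _ _) _
  have hg0 : ∀ k x z x0, 0 ≤ gv be l K S Kq c v x z k x0 := fun k x z x0 =>
    gv_nonneg hbe.le hT c v x z k x0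
  have hQ0 : ∀ x0, 0 ≤ Q x0 := by
    intro x0
    refine sum_nonneg fun k _ => sum_nonneg fun x _ => sum_nonneg fun z _ => ?_
    split_ifs
    · exact mul_nonneg (sq_nonneg _) (hg0 _ _ _ _)
    · exact le_rfl
  have hE0 : ∀ x0, 0 ≤ En (ix K x0) x0 := fun x0 => hEn0 _ x0
  have heT : ∀ x0, ∀ j ≤ K, ∀ k, ∀ x ∈ iv K R1, ∀ z ∈ iv K R3,
      eT (f x0 j) (fun x k m => Wg be l K S Kq c x0 x k m) k x z =
        Z j (x0, x, z) ^ 2 * gv be l K S Kq c v x z k x0 := by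
    intro x0 j hj k x hx z hz
    unfold eT gv
    rw [hf x0 j hj x hx z hz, quad_smul]
  refine ⟨fun x0 => En (ix K x0) x0 + V x0 + D x0 + Q x0, fun x0 => ?_, fun x0 hcap => ?_,
    fun T => ?_⟩
  · have h1 := hE0 x0
    have h2 := hV0 x0
    have h3 := hD0 x0
    have h4 := hQ0 x0
    linarith
  · have h1 := hE0 x0
    have h2 := hV0 x0
    have h3 := hD0 x0
    have h4 := hQ0 x0
    refine ⟨?_, ?_, ?_, ?_, ?_, hcap⟩
    · intro k _ hk j hj hj'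
      have key : ∑ x ∈ iv K R1, ∑ z ∈ iv K R3,
          eT (f x0 j) (fun x k m => Wg be l K S Kq c x0 x k m) k x z ≤ En (ix K x0) x0 := by
        rcases hk.lt_or_eq with h5 | h5
        · rcases (by omega : j = k ∨ j = k + 1) with h6 | h6
          · subst h6
            refine le_trans (le_of_eq ?_) (hEn1 (ix K x0) x0 j hk)
            exact sum_congr rfl fun x hx => sum_congr rfl fun z hz => heT x0 j hk j x hx z hz
          · subst h6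
            refine le_trans (le_of_eq ?_) (hEn2 (ix K x0) x0 k h5)
            exact sum_congr rfl fun x hx => sum_congr rfl fun z hz =>
              heT x0 (k + 1) h5 k x hx z hz
        · subst h5
          refine le_trans (le_of_eq ?_) (hEn1 (ix k x0) x0 k le_rfl)
          rcases (by omega : j = k ∨ j = k + 1) with h6 | h6
          · subst h6
            exact sum_congr rfl fun x hx => sum_congr rfl fun z hz => heT x0 j hk j x hx z hz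
          · subst h6
            refine sum_congr rfl fun x hx => sum_congr rfl fun z hz => ?_
            rw [← heT x0 k le_rfl k x hx z hz]
            unfold eT
            rw [hfK]
      linarith
    · rw [← range_eq_Ico]
      change V x0 ≤ _
      linarith
    · rw [← range_eq_Ico]
      change D x0 ≤ _
      linarith
    · have key : ∑ k ∈ Ico 0 K, ∑ x ∈ iv K R1, ∑ z ∈ iv K R3,
          (if Ch (f x0) k (ix k x) (ix k z) then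
            eT (f x0 (k + 1)) (fun x k m => Wg be l K S Kq c x0 x k m) k x z else 0) ≤ Q x0 := by
        rw [← range_eq_Ico]
        refine sum_le_sum fun k hk => sum_le_sum fun x hx => sum_le_sum fun z hz => ?_
        rw [mem_range] at hk
        have hkx : ix k x ∈ iv (K - k) R1 := H460.ix_mem hk.le hx
        have hkz : ix k z ∈ iv (K - k) R3 := H460.ix_mem hk.le hz
        rw [heT x0 (k + 1) hk k x hx z hz]
        split_ifs with h5 h6 h6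
        · exact le_rfl
        · exact absurd (hbo x0 k hk _ hkx _ hkz h5) h6
        · exact mul_nonneg (sq_nonneg _) (hg0 _ _ _ _)
        · exact le_rfl
      linarith
    · have key : ∑ k ∈ Ico 0 K, H103.GW K R2 R3 R1 k (pl x0 k) (fun n2 n1 m =>
          if Ch (A x0) k n2 m ∨ Ch (b x0) k n1 n2 ∨ Ch (f x0) k n1 m then
            (W3 (f x0 (k + 1)) (fun x k m => Wg be l K S Kq c x0 x k m) k k n1 m).trace
            else 0) ≤ Q x0 := by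
        rw [← range_eq_Ico]
        refine sum_le_sum fun k hk => ?_
        rw [mem_range] at hk
        set F : ℤ → ℤ → ℝ := fun n1 m => if Af k (ix k x0, n1, m) then
          (4 ^ k)⁻¹ * ∑ x ∈ iv k n1, ∑ z ∈ iv k m, f x0 (k + 1) x z ⬝ᵥ
            Wg be l K S Kq c x0 x k m *ᵥ f x0 (k + 1) x z else 0 with hF
        have hF0 : ∀ n1 m, 0 ≤ F n1 m := by
          intro n1 m
          simp only [hF]
          split_ifs
          · exact mul_nonneg (by positivity) (sum_nonneg fun x _ => sum_nonneg fun z _ =>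
              H420.quad_nonneg (hWpd x0 x k m).posSemidef _)
          · exact le_rfl
        have h5 := GW_le (N := K) (k := k) R2 R3 R1 (pl x0 k) (f := F) hF0 (g := fun n2 n1 m =>
          if Ch (A x0) k n2 m ∨ Ch (b x0) k n1 n2 ∨ Ch (f x0) k n1 m then
            (W3 (f x0 (k + 1)) (fun x k m => Wg be l K S Kq c x0 x k m) k k n1 m).trace
            else 0) (by
          intro n2 hn2 n1 hn1 m hm' hpl
          by_cases h6 : Ch (A x0) k n2 m ∨ Ch (b x0) k n1 n2 ∨ Ch (f x0) k n1 m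
          · have h7 := hcr x0 k hk n2 hn2 n1 hn1 m hm' hpl h6
            rw [if_pos h6]
            simp only [hF]
            rw [if_pos h7]
            unfold W3
            rw [H389.tr_QW1, show (2 : ℝ) ^ k * 2 ^ k = 4 ^ k by rw [← mul_pow]; norm_num]
          · rw [if_neg h6]
            exact hF0 n1 m)
        refine h5.trans (le_of_eq ?_)
        have e5 : (4 : ℝ) ^ k * ∑ n1 ∈ iv (K - k) R1, ∑ m ∈ iv (K - k) R3, F n1 m =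
            ∑ n1 ∈ iv (K - k) R1, ∑ m ∈ iv (K - k) R3, (if Af k (ix k x0, n1, m) then
              ∑ x ∈ iv k n1, ∑ z ∈ iv k m, Z (k + 1) (x0, x, z) ^ 2 *
                gv be l K S Kq c v x z k x0 else 0) := by
          rw [mul_sum]
          refine sum_congr rfl fun n1 hn1 => ?_
          rw [mul_sum]
          refine sum_congr rfl fun m hm' => ?_
          simp only [hF]
          split_ifs
          · rw [← mul_assoc, mul_inv_cancel₀ (by positivity), one_mul]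
            refine sum_congr rfl fun x hx => sum_congr rfl fun z hz => ?_
            have hxR : x ∈ iv K R1 := up_iv hk.le hx hn1
            have hzR : z ∈ iv K R3 := up_iv hk.le hz hm'
            have h8 := heT x0 (k + 1) hk k x hxR z hzR
            rw [← h8]
            unfold eT
            rw [mem_iv.1 hz]
          · rw [mul_zero]
        rw [e5]
        exact sq_pts hk.le R1 R3 (fun n m => Af k (ix k x0, n, m)) _
      linarith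
  · have e1 : ∑ x0 ∈ iv K T, (En (ix K x0) x0 + V x0 + D x0 + Q x0) =
        ∑ x0 ∈ iv K T, En T x0 + ∑ x0 ∈ iv K T, V x0 + ∑ x0 ∈ iv K T, D x0 +
          ∑ x0 ∈ iv K T, Q x0 := by
      rw [sum_add_distrib, sum_add_distrib, sum_add_distrib]
      congr 3
      exact sum_congr rfl fun x0 hx0 => by rw [mem_iv.1 hx0]
    rw [e1]
    have h1 := hEn3 T
    have h2 := mv_TI (S := S) (R1 := R1) (R3 := R3) hbe hT he hZ (f := f)
      (fun x0 k hk x hx z hz => hf x0 (k + 1) hk x hx z hz) c T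
    have h3 := dr_TI (S := S) (R1 := R1) (R3 := R3) hT he hZ (f := f)
      (fun x0 k hk x hx z hz => hf x0 (k + 1) hk x hx z hz) c T
    have h4 := af_TI (S := S) (R1 := R1) (R3 := R3) hbe.le hT he hZ hZ1 hP hA hτ hm hh hPh q c T
    unfold nTI
    refine add_le_add (add_le_add (add_le_add (h1.trans (le_of_eq ?_)) h2) h3) h4
    simp only [sum_add_distrib, mul_sum]

/-- **The same in the letters of the families.** `C x0 k z x = Z k (x0, x, z) • v x z`. -/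
theorem num_TI {be l : ℝ} (hbe : 0 < be) (hl : 0 < l) {o : ℤ} {K : ℕ} {M : Pt}
    {u v : ℤ → ℤ → ι → ℝ} {Z : ℕ → Pt → ℝ} {e : ℝ} (he : 0 ≤ e) (hZ : Lin K e Z)
    (hZ1 : ∀ k < K, ∀ m x z : ℤ, ∑ x0 ∈ iv k m, Z (k + 1) (x0, x, z) ^ 2 ≤ e * 2 ^ k)
    {QC : ℕ → ℤ → ℤ → ℤ → Prop} {B τ : ℝ} (hB : 1 ≤ B) (hτ : 0 ≤ τ)
    (hpk : ∀ x0, PackQ K M.1 M.2.2 (fun k => QC k (ix k x0)) B)
    (hmC : ∀ x0, ∀ k < K, ∀ i j, QC k (ix k x0) i j →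
      ∑ x ∈ iv k i, ∑ z ∈ iv k j, v x z ⬝ᵥ v x z ≤ τ * 4 ^ k)
    (hmono : ∀ k < K, ∀ x0 x z, ¬ QC k (ix k x0) (ix k x) (ix k z) →
      Z k (x0, x, z) ^ 2 ≤ Z (k + 1) (x0, x, z) ^ 2)
    {Af : ℕ → Pt → Prop} {P : ℝ} (hP : 0 ≤ P) (hA : GP Af K P)
    (hm : ∀ k ≤ K, ∀ m : Pt, m.2.1 ∈ iv (K - k) M.1 → m.2.2 ∈ iv (K - k) M.2.2 → Af k m →
      ∑ x1 ∈ iv k m.2.1, ∑ x3 ∈ iv k m.2.2, v x1 x3 ⬝ᵥ v x1 x3 ≤ τ * 4 ^ k)
    {h : ℕ} (hh : 1 ≤ h) (hPh : 2 * (4 * P) ≤ h) (lam L q : ℕ)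
    (A : ℤ → ℕ → ℤ → ℤ → ℝ) (b : ℤ → ℕ → ℤ → ℤ → ι → ℝ) (C : ℤ → ℕ → ℤ → ℤ → ι → ℝ)
    (hC : ∀ x0, ∀ k ≤ K, ∀ x ∈ iv K M.1, ∀ z ∈ iv K M.2.2,
      C x0 k z x = Z k (x0, x, z) • v x z)
    (hcr : ∀ x0, ∀ k < K, ∀ n2 ∈ iv (K - k) M.2.1, ∀ n1 ∈ iv (K - k) M.1,
      ∀ m ∈ iv (K - k) M.2.2, n2 + n1 + m = cP o x0 k →
      (Ch (fun j y z => A x0 (min j K) z y) k n2 m ∨ Ch (b x0) k n1 n2 ∨
        Ch (fun j x z => C x0 (min j K) z x) k n1 m) → Af k (ix k x0, n1, m))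
    (hbo : ∀ x0, ∀ k < K, ∀ n1 ∈ iv (K - k) M.1, ∀ m ∈ iv (K - k) M.2.2,
      Ch (fun j x z => C x0 (min j K) z x) k n1 m → Af k (ix k x0, n1, m)) (cC : ℝ) :
    ∃ E : ℤ → ℝ, (∀ x0, 0 ≤ E x0) ∧ (∀ x0,
      (∀ k a n m, 0 ≤ k → 0 ≤ a → k ≤ K → a ≤ K → ∀ j, min k a ≤ j → j ≤ min k a + 1 →
        n ∈ iv (K - a) M.1 → m ∈ iv (K - k) M.2.2 →
        (cC ^ 2 • (1 : Matrix (P075.Ix k) (P075.Ix k) ℝ) -
          W3 ((fun j x z => C x0 (min j K) z x) j) (H44.Ti.Ww be l o K M u x0)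
            k a n m).PosSemidef) →
      Num 0 K M.1 M.2.1 M.2.2 (cP o x0) (fun j y z => A x0 (min j K) z y) (b x0)
        (fun j x z => C x0 (min j K) z x) (H44.Ti.Ww be l o K M u x0)
        (ah' l K M.2.1 (H677.KT l u) (o - 2) x0)
        (fun x k m => eb l K M.2.1 (H677.KT l u x) (o - 2) x0 x k m) (E x0) cC) ∧
      ∀ T, ∑ x0 ∈ iv K T, E x0 ≤ nTI be l e τ P B K lam L h q
        (∑ x ∈ iv K M.1, ∑ z ∈ iv K M.2.2, v x z ⬝ᵥ v x z)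
        (∑ x ∈ iv K M.1, ∑ z ∈ iv K M.2.2, v x z ⬝ᵥ H677.GT u x K M.2.1 *ᵥ v x z) :=
  num_core (S := M.2.1) (G := H677.GT u) (Kq := H677.KT l u) hbe
    (fun x => H677.tr_T hl K u x) he hZ hZ1 hB hτ hpk hmC hmono hP hA hm hh hPh lam L q (o - 2)
    (fun x0 => cP o x0) (fun x0 j y z => A x0 (min j K) z y) b
    (fun x0 j x z => C x0 (min j K) z x)
    (fun x0 k hk x hx z hz => by
      rw [min_eq_left hk]
      exact hC x0 k hk x hx z hz)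
    (fun x0 x z => by rw [min_eq_right (Nat.le_succ K), min_self]) hcr hbo cC

end num

end

end Vale.Agent.P141.H447
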